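import Vale.Agent.P146.G8.Shared
import Vale.Agent.P146.H604.HNum
import Vale.Agent.P146.H797.H604_HNum

/-!
P146, plan B, [B8]: the inputs of the h-row, for a matrix of functions of a position, in terms of
the size of the matrix, its rate, the moments of its columns and the law change, for the law
`densG q G F` with a general base density (the results of `H604.HNumG` and `H604.HNum`).
-/

set_option linter.all false

open MeasureTheory ProbabilityTheory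

namespace Vale.Agent.P146.R1S

open Vale.Agent.P157.Lv Vale.Agent.P146.H425 Vale.Agent.P146.H325
  Vale.Agent.P146.H712 Vale.Agent.P146.R1 Vale.Agent.P146.R1C Vale.Agent.P146.H816
  Vale.Agent.P146.H604 Matrix
open Vale.Agent.P146.H332 hiding Nf Gf

section gen

variable {n : ℕ} {q : Par} {G : GD (Pair n)} {F : (Pair n → ℝ) → ℝ} {D : Pair n → (Pair n → ℝ) → ℝ}
  {B L ε : ℝ} {C : (Pair n → ℝ) → Matrix (Fin n) (Fin n) ℝ}
  {E : Pair n → (Pair n → ℝ) → Matrix (Fin n) (Fin n) ℝ} {c : Fin 4 → ℝ}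

/-- bounded functions which are rarely large, times a bounded function -/
lemma EnG_prod_le (h : C11 F D B L) (hx : 0 < q.x) (hG : G.Ok) {f g : (K4 (Pair n) → ℝ) → ℝ} (hf : EG f)
    (hg : EG g) (h0 : ∀ w, 0 ≤ f w) (g0 : ∀ w, 0 ≤ g w) {K Gb W δ G1 : ℝ} (hK : ∀ w, f w ≤ K)
    (hgb : ∀ w, g w ≤ Gb) (hW : 0 ≤ W)
    (hδ : EnG q G F (fun w => if W < f w then (1 : ℝ) else 0) ≤ δ) (hg1 : EnG q G F g ≤ G1) :
    EnG q G F (fun w => f w * g w) ≤ W * G1 + K * Gb * δ := by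
  have hi : EG fun w => if W < f w then (1 : ℝ) else 0 := by
    refine EG.of_bdd (C := 1) ?_ fun w => ?_
    · exact Measurable.ite (measurableSet_lt measurable_const hf.meas) measurable_const
        measurable_const
    · split_ifs <;> simp
  have hK0 : 0 ≤ K := (h0 0).trans (hK 0)
  have hGb0 : 0 ≤ Gb := (g0 0).trans (hgb 0)
  refine (EnG_mono h hx hG (hf.mul hg) ((hg.const_mul W).add (hi.const_mul (K * Gb)))
    fun w => ?_).trans ?_
  · split_ifs with h1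
    · have a1 := mul_le_mul (hK w) (hgb w) (g0 w) hK0
      have a2 := mul_nonneg hW (g0 w)
      linarith
    · rw [mul_zero, add_zero]
      exact mul_le_mul_of_nonneg_right (not_lt.1 h1) (g0 w)
  · rw [EnG_add h hx hG (hg.const_mul W) (hi.const_mul _), EnG_const_mul, EnG_const_mul]
    have := mul_le_mul_of_nonneg_left hδ (mul_nonneg hK0 hGb0)
    have := mul_le_mul_of_nonneg_left hg1 hW
    linarith

/-- the moments of `Zn` under the law of a pair -/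
lemma Zn_momG (h : C11 F D B L) (hq : q.OkS) (hG : G.Ok) (hl : LChG q G F ε) (hε0 : 0 ≤ ε)
    (hεn : (n : ℝ) ^ 20 * ε ≤ 1) (n2 : (2 : ℝ) ≤ n) {Am : (K4 (Pair n) → ℝ) → Matrix (Fin n) (Fin n) ℝ}
    (hA : ∀ i j, EG fun w => Am w i j) (hb : ∀ w, fr (Am w) ≤ (n : ℝ) ^ 2) {W δ u : ℝ}
    (hW : 0 ≤ W) (hδ0 : 0 ≤ δ)
    (hδ : EnG q G F (fun w => if W < fr (Am w) then (1 : ℝ) else 0) ≤ δ)
    (hδn : (n : ℝ) ^ 200 * δ ≤ 1) (hu : W / n ≤ u) (hu1 : 1 ≤ u) (b b' : Fin n) (p : ℕ)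
    (hp : p ≤ 10) :
    ∫ w, phG q G F b b' w * Zn Am w ^ p ∂(gI (K4 (Pair n))) ≤
      EwG q G F (fun _ => 1) * (5 * u ^ p) := by
  have hx := hq.x0
  have hE := EwG1_pos (q := q) (G := G) h hx hG
  have hn0 : (0 : ℝ) < n := by linarith
  have hZ := eg_Zn hA
  have hZn : ∀ w, Zn Am w ≤ n := by
    intro w
    unfold Zn
    rw [div_le_iff₀ hn0]
    have := hb w
    nlinarith
  have h1 := phG_le h hq.x0 hG hl b b' (f := fun w => Zn Am w ^ p) (K := (n : ℝ) ^ p) (hZ.pow p)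
    (fun w => pow_nonneg (Zn_nonneg w) p) (fun w => pow_le_pow_left₀ (Zn_nonneg w) (hZn w) p)
  refine h1.trans (mul_le_mul_of_nonneg_left ?_ hE.le)
  -- the mean of the power
  have h2 := EnG_pow_le h hx hG (R1C.eg_fr hA) (fun w => H332.fr_nonneg (Am w)) hb hW hδ p
  have e1 : EnG q G F (fun w => Zn Am w ^ p) = ((n : ℝ)⁻¹) ^ p * EnG q G F (fun w => fr (Am w) ^ p) := by
    rw [← EnG_const_mul]
    congr 1
    funext w
    unfold Zn
    rw [div_eq_inv_mul, mul_pow]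
  have h3 : ((n : ℝ)⁻¹) ^ p * ((n : ℝ) ^ 2) ^ p = (n : ℝ) ^ p := by
    rw [← mul_pow]
    congr 1
    field_simp
  have h4 : ((n : ℝ)⁻¹) ^ p * W ^ p ≤ u ^ p := by
    rw [← mul_pow]
    refine pow_le_pow_left₀ (by positivity) ?_ p
    rwa [← div_eq_inv_mul]
  have h5 : (n : ℝ) ^ p * δ ≤ 1 / 4 := by
    have a1 : (n : ℝ) ^ p * 4 ≤ (n : ℝ) ^ 200 := by
      calc (n : ℝ) ^ p * 4 ≤ (n : ℝ) ^ 198 * (n : ℝ) ^ 2 := by
            refine mul_le_mul (pow_le_pow_right₀ (by linarith) (by omega)) (by nlinarith)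
              (by norm_num) (by positivity)
        _ = _ := by rw [← pow_add]
    have a2 := mul_le_mul_of_nonneg_right a1 hδ0
    linarith
  have h6 : (n : ℝ) ^ p * ε ≤ 1 := by
    refine (mul_le_mul_of_nonneg_right (pow_le_pow_right₀ (by linarith) (by omega)) hε0).trans hεn
  have h7 : EnG q G F (fun w => Zn Am w ^ p) ≤ u ^ p + 1 / 4 := by
    rw [e1]
    have a1 := mul_le_mul_of_nonneg_left h2 (by positivity : 0 ≤ ((n : ℝ)⁻¹) ^ p)
    have a2 : ((n : ℝ)⁻¹) ^ p * (W ^ p + ((n : ℝ) ^ 2) ^ p * δ) =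
        ((n : ℝ)⁻¹) ^ p * W ^ p + (((n : ℝ)⁻¹) ^ p * ((n : ℝ) ^ 2) ^ p) * δ := by ring
    rw [a2, h3] at a1
    linarith
  have h8 : 1 ≤ u ^ p := one_le_pow₀ hu1
  have h9 : ε * (n : ℝ) ^ p ≤ 1 := by rw [mul_comm]; exact h6
  linarith

/-- **the touches of `Zn`, summed over the pairs** -/
theorem Zn_touchG (h : C11 F D B L) (hq : q.OkS) (hG : G.Ok) (hl : LChG q G F ε) (hε0 : 0 ≤ ε)
    (hεn : (n : ℝ) ^ 20 * ε ≤ 1) (n2 : (2 : ℝ) ≤ n) (hC : ∀ i j, EG fun z => C z i j)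
    (hE : ∀ e i j, EG fun z => E e z i j)
    (hd : ∀ e i j, PD e (fun z => C z i j) (fun z => E e z i j))
    (hc : c 0 ^ 2 + c 1 ^ 2 + c 2 ^ 2 + c 3 ^ 2 ≤ 1)
    (hb : ∀ z, fr (C z) ≤ (n : ℝ) ^ 2) (hr : ∀ z, ∑ e, fr (E e z) ≤ 9 * (n : ℝ) ^ 4)
    {W δ T : ℝ} (hW : 1 ≤ W) (hδ0 : 0 ≤ δ)
    (hδ : EnG q G F (fun w => if W < fr (C (H712.lp c w)) then (1 : ℝ) else 0) ≤ δ)
    (hδn : (n : ℝ) ^ 200 * δ ≤ 1) (hT0 : 0 < T) (hT1 : T ≤ 1)
    (hrt : EnG q G F (fun w => ∑ e, fr (E e (H712.lp c w))) ≤ W / T) :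
    ∑ b : Fin n, ∑ b' ∈ Finset.univ.erase b,
      ∫ w, phG q G F b b' w * (Zn (fun w => C (H712.lp c w)) w -
        Av (lf (row b ∪ row b')) (Zn fun w => C (H712.lp c w)) w) ^ 2 ∂(gI (K4 (Pair n))) ≤
      EwG q G F (fun _ => 1) * (68 * (W ^ 2 / (n * T))) := by
  have hx := hq.x0
  have hE0 := EwG1_pos (q := q) (G := G) h hx hG
  have hn0 : (0 : ℝ) < n := by linarith
  obtain ⟨Z, hZ⟩ : ∃ Z, Z = EwG q G F (fun _ : K4 (Pair n) → ℝ => (1 : ℝ)) := ⟨_, rfl⟩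
  rw [← hZ] at hE0 ⊢
  have eC : EG fun w : K4 (Pair n) → ℝ => fr (C (H712.lp c w)) :=
    R1C.eg_fr fun i j => eg_lp c (hC i j)
  have eE : ∀ e, EG fun w : K4 (Pair n) → ℝ => fr (E e (H712.lp c w)) := fun e =>
    R1C.eg_fr fun i j => eg_lp c (hE e i j)
  have eR : ∀ R : Finset (Pair n), EG fun w : K4 (Pair n) → ℝ => ∑ e ∈ R, fr (E e (H712.lp c w)) :=
    fun R => EG.sum R fun e _ => eE e
  have fC : ∀ w, 0 ≤ fr (C (H712.lp c w)) := fun w => H332.fr_nonneg _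
  have fR : ∀ (R : Finset (Pair n)) w, 0 ≤ ∑ e ∈ R, fr (E e (H712.lp c w)) := fun R w =>
    Finset.sum_nonneg fun e _ => H332.fr_nonneg _
  have uR : ∀ (R : Finset (Pair n)) w, ∑ e ∈ R, fr (E e (H712.lp c w)) ≤ 9 * (n : ℝ) ^ 4 :=
    fun R w => (Finset.sum_le_sum_of_subset_of_nonneg (Finset.subset_univ R)
      fun e _ _ => H332.fr_nonneg _).trans (hr _)
  -- one pair
  have one : ∀ b b' : Fin n, ∫ w, phG q G F b b' w * (Zn (fun w => C (H712.lp c w)) w -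
        Av (lf (row b ∪ row b')) (Zn fun w => C (H712.lp c w)) w) ^ 2 ∂(gI (K4 (Pair n))) ≤
      4 / n ^ 2 * (Z * (2 * ∑ e ∈ row b ∪ row b', EnG q G F (fun w => fr (C (H712.lp c w)) *
        fr (E e (H712.lp c w))) + ε * (9 * (n : ℝ) ^ 6))) := by
    intro b b'
    have t1 := touch_Zn (R := row b ∪ row b') c hC hE hd (eg_phG h hq.x0 hG b b')
      (phG_nn b b') (by unfold phG; exact ind_Av _ _)
    have t2 := phG_le h hq.x0 hG hl b b' (f := fun w => fr (C (H712.lp c w)) *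
      ∑ e ∈ row b ∪ row b', fr (E e (H712.lp c w))) (K := 9 * (n : ℝ) ^ 6)
      (eC.mul (eR _)) (fun w => mul_nonneg (fC w) (fR _ w)) (fun w => by
        have := mul_le_mul (hb (H712.lp c w)) (uR (row b ∪ row b') w) (fR _ w) (by positivity)
        calc _ ≤ _ := this
          _ = _ := by ring)
    rw [← hZ] at t2
    have e1 : EnG q G F (fun w => fr (C (H712.lp c w)) *
        ∑ e ∈ row b ∪ row b', fr (E e (H712.lp c w))) =
        ∑ e ∈ row b ∪ row b', EnG q G F (fun w => fr (C (H712.lp c w)) * fr (E e (H712.lp c w))) := by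
      rw [← EnG_sum h hx hG _ fun e _ => eC.mul (eE e)]
      congr 1
      funext w
      rw [Finset.mul_sum]
    rw [e1] at t2
    refine t1.trans ?_
    have h3 : 4 * (c 0 ^ 2 + c 1 ^ 2 + c 2 ^ 2 + c 3 ^ 2) / (n : ℝ) ^ 2 ≤ 4 / n ^ 2 := by
      rw [div_le_div_iff_of_pos_right (by positivity)]
      linarith
    have h4 : 0 ≤ ∫ w, phG q G F b b' w * (fr (C (H712.lp c w)) *
        ∑ e ∈ row b ∪ row b', fr (E e (H712.lp c w))) ∂(gI (K4 (Pair n))) :=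
      integral_nonneg fun w => mul_nonneg (phG_nn b b' w)
        (mul_nonneg (fC w) (fR _ w))
    refine (mul_le_mul_of_nonneg_right h3 h4).trans ?_
    exact mul_le_mul_of_nonneg_left t2 (by positivity)
  -- the product
  have hprod : EnG q G F (fun w => fr (C (H712.lp c w)) * ∑ e, fr (E e (H712.lp c w))) ≤
      2 * (W ^ 2 / T) := by
    have a1 := EnG_prod_le h hx hG eC (eR Finset.univ) fC (fR Finset.univ)
      (fun w => hb (H712.lp c w)) (uR Finset.univ) (by linarith) hδ hrt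
    have a2 : (n : ℝ) ^ 2 * (9 * (n : ℝ) ^ 4) * δ ≤ 1 := by
      refine le_trans (mul_le_mul_of_nonneg_right ?_ hδ0) hδn
      have a3 : (9 : ℝ) ≤ (n : ℝ) ^ 4 := by
        have := pow_le_pow_left₀ (by norm_num) n2 4
        norm_num at this
        linarith
      calc (n : ℝ) ^ 2 * (9 * (n : ℝ) ^ 4) = 9 * (n : ℝ) ^ 6 := by ring
        _ ≤ (n : ℝ) ^ 4 * (n : ℝ) ^ 6 := mul_le_mul_of_nonneg_right a3 (by positivity)
        _ = (n : ℝ) ^ 10 := by rw [← pow_add]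
        _ ≤ _ := pow_le_pow_right₀ (by linarith) (by norm_num)
    have a4 : 1 ≤ W ^ 2 / T := by
      rw [le_div_iff₀ hT0]
      nlinarith
    have a5 : W * (W / T) = W ^ 2 / T := by ring
    rw [a5] at a1
    linarith
  have g0 : ∀ e, 0 ≤ EnG q G F (fun w => fr (C (H712.lp c w)) * fr (E e (H712.lp c w))) := fun e =>
    EnG_nonneg fun w => mul_nonneg (fC w) (H332.fr_nonneg _)
  have hpairs := sum_pairs_rows g0
  have e2 : ∑ e, EnG q G F (fun w => fr (C (H712.lp c w)) * fr (E e (H712.lp c w))) =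
      EnG q G F (fun w => fr (C (H712.lp c w)) * ∑ e, fr (E e (H712.lp c w))) := by
    rw [← EnG_sum h hx hG _ fun e _ => eC.mul (eE e)]
    congr 1
    funext w
    rw [Finset.mul_sum]
  rw [e2] at hpairs
  have hconst := H712.sum_pairs_const (n := n) (ε * (9 * (n : ℝ) ^ 6)) (by positivity)
  have hU : 1 ≤ W ^ 2 / T := by
    rw [le_div_iff₀ hT0]
    nlinarith
  have hεb : (n : ℝ) ^ 2 * (ε * (9 * (n : ℝ) ^ 6)) ≤ 1 := by
    have a3 : (9 : ℝ) ≤ (n : ℝ) ^ 4 := by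
      have := pow_le_pow_left₀ (by norm_num) n2 4
      norm_num at this
      linarith
    have a4 : 9 * (n : ℝ) ^ 8 ≤ (n : ℝ) ^ 20 := by
      calc 9 * (n : ℝ) ^ 8 ≤ (n : ℝ) ^ 4 * (n : ℝ) ^ 8 :=
            mul_le_mul_of_nonneg_right a3 (by positivity)
        _ = (n : ℝ) ^ 12 := by rw [← pow_add]
        _ ≤ _ := pow_le_pow_right₀ (by linarith) (by norm_num)
    have a5 := mul_le_mul_of_nonneg_right a4 hε0
    have a6 : (n : ℝ) ^ 2 * (ε * (9 * (n : ℝ) ^ 6)) = 9 * (n : ℝ) ^ 8 * ε := by ring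
    rw [a6]
    exact a5.trans hεn
  refine (Finset.sum_le_sum fun b _ => Finset.sum_le_sum fun b' _ => one b b').trans ?_
  have e3 : ∑ b : Fin n, ∑ b' ∈ Finset.univ.erase b, 4 / (n : ℝ) ^ 2 *
      (Z * (2 * ∑ e ∈ row b ∪ row b', EnG q G F (fun w => fr (C (H712.lp c w)) *
        fr (E e (H712.lp c w))) + ε * (9 * (n : ℝ) ^ 6))) =
      4 / (n : ℝ) ^ 2 * (Z * (2 * (∑ b : Fin n, ∑ b' ∈ Finset.univ.erase b,
        ∑ e ∈ row b ∪ row b', EnG q G F (fun w => fr (C (H712.lp c w)) *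
        fr (E e (H712.lp c w)))) + ∑ b : Fin n, ∑ _b' ∈ Finset.univ.erase b,
          ε * (9 * (n : ℝ) ^ 6))) := by
    simp only [← Finset.mul_sum, Finset.sum_add_distrib]
  rw [e3]
  have f1 : 2 * (∑ b : Fin n, ∑ b' ∈ Finset.univ.erase b,
        ∑ e ∈ row b ∪ row b', EnG q G F (fun w => fr (C (H712.lp c w)) *
        fr (E e (H712.lp c w)))) + ∑ b : Fin n, ∑ _b' ∈ Finset.univ.erase b,
          ε * (9 * (n : ℝ) ^ 6) ≤ 17 * (n * (W ^ 2 / T)) := by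
    have b1 : 4 * (n : ℝ) * EnG q G F (fun w => fr (C (H712.lp c w)) *
        ∑ e, fr (E e (H712.lp c w))) ≤ 4 * (n : ℝ) * (2 * (W ^ 2 / T)) :=
      mul_le_mul_of_nonneg_left hprod (by positivity)
    have b2 : (1 : ℝ) ≤ n * (W ^ 2 / T) := by nlinarith
    linarith
  have f2 := mul_le_mul_of_nonneg_left (mul_le_mul_of_nonneg_left f1 hE0.le)
    (by positivity : (0 : ℝ) ≤ 4 / n ^ 2)
  refine f2.trans (le_of_eq ?_)
  field_simp
  ring

/-- **The inputs of the h-row**, for the matrix `C` at a position. -/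
theorem hin_genG (h : C11 F D B L) (hq : q.OkS) (hG : G.Ok) (hl : LChG q G F ε) (hε0 : 0 ≤ ε)
    (hεn : (n : ℝ) ^ 20 * ε ≤ 1) (n2 : (2 : ℝ) ≤ n) (hC : ∀ i j, EG fun z => C z i j)
    (hE : ∀ e i j, EG fun z => E e z i j)
    (hd : ∀ e i j, PD e (fun z => C z i j) (fun z => E e z i j))
    (hc : c 0 ^ 2 + c 1 ^ 2 + c 2 ^ 2 + c 3 ^ 2 ≤ 1)
    (hb : ∀ z, fr (C z) ≤ (n : ℝ) ^ 2) (hr : ∀ z, ∑ e, fr (E e z) ≤ 9 * (n : ℝ) ^ 4)
    {W δ T u : ℝ} (hW : 1 ≤ W) (hδ0 : 0 ≤ δ)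
    (hδ : EnG q G F (fun w => if W < fr (C (H712.lp c w)) then (1 : ℝ) else 0) ≤ δ)
    (hδn : (n : ℝ) ^ 200 * δ ≤ 1) (hT0 : 0 < T) (hT1 : T ≤ 1)
    (hrt : EnG q G F (fun w => ∑ e, fr (E e (H712.lp c w))) ≤ W / T)
    (hu : W / n ≤ u) (hu1 : 1 ≤ u) {m4 m8 lm : ℝ} (hm8 : 5 * u ^ 4 ≤ m8)
    (h2 : ∀ b b' : Fin n, b' ≠ b → ∫ w, phG q G F b b' w *
      H706.vs (H816.col (C (H712.lp c w)) b) ^ 2 ∂(gI (K4 (Pair n))) ≤ EwG q G F (fun _ => 1) * m4)
    (h4 : ∀ b b' : Fin n, b' ≠ b → ∀ i, i = b ∨ i = b' → ∫ w, phG q G F b b' w *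
      H706.vs (H816.col (C (H712.lp c w)) i) ^ 4 ∂(gI (K4 (Pair n))) ≤ EwG q G F (fun _ => 1) * m8)
    (hlam : ∀ b b' : Fin n, b' ≠ b → ∀ f : (K4 (Pair n) → ℝ) → ℝ, EG f →
      ∫ w, phG q G F b b' w * f w ^ 2 ∂(gI (K4 (Pair n))) ≤ EwG q G F (fun _ => 1) * m8 →
      |∫ w, densG q G F w * f w ∂(gI (K4 (Pair n))) - ∫ w, phG q G F b b' w * f w ∂(gI (K4 (Pair n)))| ≤
        EwG q G F (fun _ => 1) * lm)
    {M : Fin n → Fin n → ℝ} (hM : ∀ b b', b' ≠ b → EwG q G F (fun _ => 1) * (5 * u ^ 3) ≤ M b b') :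
    ∃ ζ : Fin n → Fin n → ℝ, HInG q G F (fun w => C (H712.lp c w)) M
        (fun _ _ => EwG q G F (fun _ => 1) * m4) ζ (fun _ _ => EwG q G F (fun _ => 1) * lm) ∧
      (∀ b b', 0 ≤ ζ b b') ∧
      ∑ b : Fin n, ∑ b' ∈ Finset.univ.erase b, ζ b b' ^ 2 ≤
        EwG q G F (fun _ => 1) * (68 * (W ^ 2 / (n * T))) := by
  have hA : ∀ i j, EG fun w : K4 (Pair n) → ℝ => C (H712.lp c w) i j := fun i j => eg_lp c (hC i j)
  obtain ⟨Am, hAm⟩ : ∃ Am : (K4 (Pair n) → ℝ) → Matrix (Fin n) (Fin n) ℝ,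
      Am = fun w => C (H712.lp c w) := ⟨_, rfl⟩
  have hAe : ∀ i j, EG fun w => Am w i j := by rw [hAm]; exact hA
  have hbm : ∀ w, fr (Am w) ≤ (n : ℝ) ^ 2 := by rw [hAm]; exact fun w => hb _
  have hδm : EnG q G F (fun w => if W < fr (Am w) then (1 : ℝ) else 0) ≤ δ := by rw [hAm]; exact hδ
  have hZe := eg_Zn hAe
  have hcol : ∀ i j, EG fun w => H816.col (Am w) i j := fun i j => hAe j i
  have hvs : ∀ i, EG fun w => H706.vs (H816.col (Am w) i) := fun i =>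
    EG.sum _ fun j _ => (hcol i j).pow 2
  have hph : ∀ b b' : Fin n, EG (phG q G F b b') := fun b b' => eg_phG h hq.x0 hG b b'
  have hp0 : ∀ (b b' : Fin n) w, 0 ≤ phG q G F b b' w := fun b b' w => phG_nn b b' w
  have hE1 := EwG1_pos (q := q) (G := G) h hq.x0 hG
  have mom := fun (b b' : Fin n) (p : ℕ) (hp : p ≤ 10) =>
    Zn_momG h hq hG hl hε0 hεn n2 hAe hbm (by linarith) hδ0 hδm hδn hu hu1 b b' p hp
  -- the squares
  have half : ∀ b b' : Fin n, b' ≠ b → ∀ f g : (K4 (Pair n) → ℝ) → ℝ, EG f → EG g →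
      ∫ w, phG q G F b b' w * f w ^ 4 ∂(gI (K4 (Pair n))) ≤ EwG q G F (fun _ => 1) * m8 →
      ∫ w, phG q G F b b' w * g w ^ 4 ∂(gI (K4 (Pair n))) ≤ EwG q G F (fun _ => 1) * m8 →
      ∫ w, phG q G F b b' w * (f w * g w) ^ 2 ∂(gI (K4 (Pair n))) ≤
        EwG q G F (fun _ => 1) * m8 := by
    intro b b' _ f g hf hg h1 h2
    have h3 : ∫ w, phG q G F b b' w * (f w * g w) ^ 2 ∂(gI (K4 (Pair n))) ≤
        ∫ w, (1 / 2 * (phG q G F b b' w * f w ^ 4) + 1 / 2 * (phG q G F b b' w * g w ^ 4))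
          ∂(gI (K4 (Pair n))) := by
      refine integral_mono ((hph b b').mul ((hf.mul hg).pow 2)).integrable
        ((((hph b b').mul (hf.pow 4)).const_mul _).add
          (((hph b b').mul (hg.pow 4)).const_mul _)).integrable fun w => ?_
      have a1 := mul_le_mul_of_nonneg_left (by nlinarith [sq_nonneg (f w ^ 2 - g w ^ 2)] :
        (f w * g w) ^ 2 ≤ 1 / 2 * (f w ^ 4 + g w ^ 4)) (hp0 b b' w)
      refine a1.trans (le_of_eq ?_)
      ring
    rw [integral_add (((hph b b').mul (hf.pow 4)).const_mul _).integrable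
      (((hph b b').mul (hg.pow 4)).const_mul _).integrable, integral_const_mul,
      integral_const_mul] at h3
    linarith
  have hZ4 : ∀ b b' : Fin n, ∫ w, phG q G F b b' w * Zn Am w ^ 4 ∂(gI (K4 (Pair n))) ≤
      EwG q G F (fun _ => 1) * m8 := fun b b' =>
    (mom b b' 4 (by norm_num)).trans (mul_le_mul_of_nonneg_left hm8 hE1.le)
  have h4m : ∀ b b' : Fin n, b' ≠ b → ∀ i, i = b ∨ i = b' → ∫ w, phG q G F b b' w *
      H706.vs (H816.col (Am w) i) ^ 4 ∂(gI (K4 (Pair n))) ≤ EwG q G F (fun _ => 1) * m8 := by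
    rw [hAm]; exact h4
  have h2m : ∀ b b' : Fin n, b' ≠ b → ∫ w, phG q G F b b' w *
      H706.vs (H816.col (Am w) b) ^ 2 ∂(gI (K4 (Pair n))) ≤ EwG q G F (fun _ => 1) * m4 := by
    rw [hAm]; exact h2
  have htch := Zn_touchG h hq hG hl hε0 hεn n2 hC hE hd hc hb hr hW hδ0 hδ hδn hT0 hT1 hrt
  rw [← hAm] at htch ⊢
  have hi0 : ∀ b b' : Fin n, 0 ≤ ∫ w, phG q G F b b' w *
      (Zn Am w - Av (lf (row b ∪ row b')) (Zn Am) w) ^ 2 ∂(gI (K4 (Pair n))) := fun b b' =>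
    integral_nonneg fun w => mul_nonneg (hp0 b b' w) (sq_nonneg _)
  refine ⟨fun b b' => √(∫ w, phG q G F b b' w *
      (Zn Am w - Av (lf (row b ∪ row b')) (Zn Am) w) ^ 2 ∂(gI (K4 (Pair n)))),
    ⟨hAe, fun b b' hb' => (mom b b' 3 (by norm_num)).trans (hM b b' hb'), h2m,
      fun b b' _ => Real.sqrt_nonneg _, fun b b' _ => (Real.sq_sqrt (hi0 b b')).ge, ?_, ?_, ?_⟩,
    fun b b' => Real.sqrt_nonneg _, ?_⟩
  · intro b b' hb'
    have a1 := half b b' hb' _ _ (hvs b) (hvs b') (h4m b b' hb' b (Or.inl rfl))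
      (h4m b b' hb' b' (Or.inr rfl))
    have a2 := hlam b b' hb' (fun w => H706.vs (H816.col (Am w) b) * H706.vs (H816.col (Am w) b'))
      ((hvs b).mul (hvs b')) a1
    have := (abs_le.1 a2).1
    linarith
  · intro b b' hb'
    have a1 := half b b' hb' _ _ (hvs b) hZe (h4m b b' hb' b (Or.inl rfl)) (hZ4 b b')
    have a2 := hlam b b' hb' (fun w => H706.vs (H816.col (Am w) b) * Zn Am w)
      ((hvs b).mul hZe) a1
    have := (abs_le.1 a2).2
    linarith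
  · intro b b' hb'
    have a1 : ∫ w, phG q G F b b' w * (Zn Am w ^ 2) ^ 2 ∂(gI (K4 (Pair n))) ≤
        EwG q G F (fun _ => 1) * m8 := by
      have e1 : ∀ w, (Zn Am w ^ 2) ^ 2 = Zn Am w ^ 4 := fun w => by ring
      simp only [e1]
      exact hZ4 b b'
    have a2 := hlam b b' hb' (fun w => Zn Am w ^ 2) (hZe.pow 2) a1
    have := (abs_le.1 a2).1
    linarith
  · refine le_trans (le_of_eq ?_) htch
    refine Finset.sum_congr rfl fun b _ => Finset.sum_congr rfl fun b' _ => ?_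
    exact Real.sq_sqrt (hi0 b b')

end gen

end Vale.Agent.P146.R1S
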