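import Vale.Agent.P146.H706G.LawT
import Vale.Agent.P146.H784.GEn
import Vale.Agent.P146.H326.PrI
import Vale.Agent.P146.H604.HRowSk
import Vale.Agent.P146.H797.H326_PrI
import Vale.Agent.P146.H941.SkTS

/-!
P146, plan B, [B8]: the pieces shared by the files of block C, for the law `densG q G F` with a
general base density: the law change `LChG`, the integrals against the averaged density `phG`, the
numbers of the errors `NbG`, `HNbG` and the inputs `HInG` of the h-row, the pairs `PrSG`.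
-/

set_option linter.all false

open MeasureTheory ProbabilityTheory

namespace Vale.Agent.P146.R1S

open Vale.Agent.P157.Lv Vale.Agent.P146.H712 Vale.Agent.P146.H325
  Vale.Agent.P146.R1C Vale.Agent.P146.R1 Vale.Agent.P146.H425 Vale.Agent.P146.H816
open Vale.Agent.P146.H332 hiding Nf Gf

variable {n : ℕ} {q : Par} {G : GD (Pair n)} {F : (Pair n → ℝ) → ℝ}
  {D : Pair n → (Pair n → ℝ) → ℝ} {B L ε : ℝ}

/-- the law change with factor 2 -/
def LChG (q : Par) (G : GD (Pair n)) (F : (Pair n → ℝ) → ℝ) (ε : ℝ) : Prop :=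
  ∀ (b b' : Fin n) (f : (K4 (Pair n) → ℝ) → ℝ) (K : ℝ), EG f → (∀ w, 0 ≤ f w) → (∀ w, f w ≤ K) →
    EwG q G F (Av (lf (row b ∪ row b')) f) ≤ 2 * EwG q G F f + ε * K * EwG q G F (fun _ => 1)

/-- the law change of a position system -/
theorem lchG_S {k : ℝ} (S : CS n k q.x) (hq : q.OkS) (hG : G.Ok) (hr : GRow k q G) (p : ℕ)
    (hp : ((p : ℝ) + 1) ^ 2 * (18 * q.x ^ 2 * k ^ 2 * n) ≤ 1) : LChG q G S.F (3 / 2 ^ p) := by
  intro b b' f K hf h0 hK
  refine (law_low_SG S hq hG hr b b' p hp hf h0 hK).trans (le_of_eq ?_)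
  ring

section basic

variable (h : C11 F D B L) (hx : 0 < q.x) (hG : G.Ok)

lemma eg_phG (h : C11 F D B L) (hx : 0 < q.x) (hG : G.Ok) (b b' : Fin n) : EG (phG q G F b b') :=
  eg_Av _ (eg_densG h hx hG)

lemma phG_nn (b b' : Fin n) (w : K4 (Pair n) → ℝ) : 0 ≤ phG q G F b b' w :=
  H712.Av_nonneg (fun w => densG_nonneg w) w

lemma ind_phG1 (b b' : Fin n) : Ind (lf (row b)) (phG q G F b b') :=
  Ind.mono (ind_Av _ _) (lf_subset Finset.subset_union_left)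

lemma ind_phG2 (b b' : Fin n) : Ind (lf (row b')) (phG q G F b b') :=
  Ind.mono (ind_Av _ _) (lf_subset Finset.subset_union_right)

lemma int_phG1 (h : C11 F D B L) (hx : 0 < q.x) (hG : G.Ok) (b b' : Fin n) :
    ∫ w, phG q G F b b' w ∂(gI (K4 (Pair n))) = EwG q G F (fun _ => 1) := by
  unfold phG EwG
  rw [integral_Av _ (eg_densG h hx hG)]
  simp only [mul_one]

lemma int_phGf (h : C11 F D B L) (hx : 0 < q.x) (hG : G.Ok) (b b' : Fin n)
    {f : (K4 (Pair n) → ℝ) → ℝ} (hf : EG f) :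
    ∫ w, phG q G F b b' w * f w ∂(gI (K4 (Pair n))) = EwG q G F (Av (lf (row b ∪ row b')) f) := by
  unfold phG EwG
  exact (H712.integral_mul_Av (eg_densG h hx hG) hf _).symm

lemma int_phG_nonneg (b b' : Fin n) {f : (K4 (Pair n) → ℝ) → ℝ} (h0 : ∀ w, 0 ≤ f w) :
    0 ≤ ∫ w, phG q G F b b' w * f w ∂(gI (K4 (Pair n))) :=
  integral_nonneg fun w => mul_nonneg (phG_nn b b' w) (h0 w)

lemma phG_le (h : C11 F D B L) (hx : 0 < q.x) (hG : G.Ok) (hl : LChG q G F ε) (b b' : Fin n)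
    {f : (K4 (Pair n) → ℝ) → ℝ} {K : ℝ} (hf : EG f) (h0 : ∀ w, 0 ≤ f w) (hK : ∀ w, f w ≤ K) :
    ∫ w, phG q G F b b' w * f w ∂(gI (K4 (Pair n))) ≤
      EwG q G F (fun _ => 1) * (2 * EnG q G F f + ε * K) := by
  rw [int_phGf h hx hG b b' hf]
  refine (hl b b' f K hf h0 hK).trans (le_of_eq ?_)
  rw [EwG_EnG h hx hG f]
  ring

/-- integrals of bulk functions -/
lemma int_phG_ind (h : C11 F D B L) (hx : 0 < q.x) (hG : G.Ok) {b b' : Fin n}
    {f : (K4 (Pair n) → ℝ) → ℝ} (hf : EG f) (hi : Ind (lf (row b ∪ row b')) f) :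
    ∫ w, phG q G F b b' w * f w ∂(gI (K4 (Pair n))) = EwG q G F f := by
  rw [int_phGf h hx hG b b' hf]
  unfold EwG
  refine integral_congr_ae (Filter.Eventually.of_forall fun w => ?_)
  simp only
  rw [Av_ind hi]

lemma EnG_sum2 (f : Fin n → Fin n → (K4 (Pair n) → ℝ) → ℝ) :
    ∑ b, ∑ b' ∈ Finset.univ.erase b, EnG q G F (f b b') =
      (∑ b, ∑ b' ∈ Finset.univ.erase b, EwG q G F (f b b')) / EwG q G F (fun _ => 1) := by
  unfold EnG
  simp only [Finset.sum_div]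

end basic

section numbers

variable {M δ lam M2 ζ : Fin n → Fin n → ℝ} {m6 dl ls m4 zl : ℝ}

/-- the numbers of the errors: `M ≤ E m6`, `∑ δ² ≤ E dl`, `lam ≤ E ls` -/
structure NbG (q : Par) (G : GD (Pair n)) (F : (Pair n → ℝ) → ℝ) (M δ lam : Fin n → Fin n → ℝ)
    (m6 dl ls : ℝ) : Prop where
  m0 : 0 ≤ m6
  l0 : 0 ≤ ls
  d0 : ∀ b b', b' ≠ b → 0 ≤ δ b b'
  hM : ∀ b b', b' ≠ b → M b b' ≤ EwG q G F (fun _ => 1) * m6
  hδ : ∑ b, ∑ b' ∈ Finset.univ.erase b, δ b b' ^ 2 ≤ EwG q G F (fun _ => 1) * dl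
  hl : ∀ b b', b' ≠ b → lam b b' ≤ EwG q G F (fun _ => 1) * ls

lemma NbG.err (hN : NbG q G F M δ lam m6 dl ls) (h : C11 F D B L) (hx : 0 < q.x) (hG : G.Ok)
    {c c' : ℝ} (hc : 0 ≤ c) (hc' : 0 ≤ c') :
    ∑ b : Fin n, ∑ b' ∈ Finset.univ.erase b, (c * lam b b' + c' * (δ b b' * √(M b b'))) ≤
      (c * (n ^ 2 * ls) + c' * (n * √(m6 * dl))) * EwG q G F (fun _ => 1) := by
  have hE := EwG_one_pos (q := q) (G := G) h hx hG
  rw [← err_scale hE]
  exact sum_pairs_le hN.hM hN.hδ hN.hl (mul_nonneg hE.le hN.l0) hc hc'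
    (mul_nonneg hE.le hN.m0) hN.d0

/-- The inputs of the h-row at one time (besides the pairs): the third moment of `Zn A`, the second
moments of the columns, the touch `ζ` of `Zn A`, the law change of the three functionals. -/
structure HInG (q : Par) (G : GD (Pair n)) (F : (Pair n → ℝ) → ℝ)
    (A : (K4 (Pair n) → ℝ) → Matrix (Fin n) (Fin n) ℝ)
    (M M2 ζ lam : Fin n → Fin n → ℝ) : Prop where
  eA : ∀ i j, EG fun w => A w i j
  mZ : ∀ b b', b' ≠ b → ∫ w, phG q G F b b' w * Zn A w ^ 3 ∂(gI (K4 (Pair n))) ≤ M b b'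
  m2 : ∀ b b', b' ≠ b →
    ∫ w, phG q G F b b' w * H706.vs (H816.col (A w) b) ^ 2 ∂(gI (K4 (Pair n))) ≤ M2 b b'
  hζ : ∀ b b', b' ≠ b → 0 ≤ ζ b b'
  dZ : ∀ b b', b' ≠ b → ∫ w, phG q G F b b' w *
    (Zn A w - Av (lf (row b ∪ row b')) (Zn A) w) ^ 2 ∂(gI (K4 (Pair n))) ≤ ζ b b' ^ 2
  l1 : ∀ b b', b' ≠ b →
    ∫ w, phG q G F b b' w * (H706.vs (H816.col (A w) b) * H706.vs (H816.col (A w) b'))
      ∂(gI (K4 (Pair n))) ≤
    ∫ w, densG q G F w * (H706.vs (H816.col (A w) b) * H706.vs (H816.col (A w) b'))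
      ∂(gI (K4 (Pair n))) + lam b b'
  l2 : ∀ b b', b' ≠ b →
    ∫ w, densG q G F w * (H706.vs (H816.col (A w) b) * Zn A w) ∂(gI (K4 (Pair n))) ≤
    ∫ w, phG q G F b b' w * (H706.vs (H816.col (A w) b) * Zn A w) ∂(gI (K4 (Pair n))) + lam b b'
  l3 : ∀ b b', b' ≠ b →
    ∫ w, phG q G F b b' w * Zn A w ^ 2 ∂(gI (K4 (Pair n))) ≤
    ∫ w, densG q G F w * Zn A w ^ 2 ∂(gI (K4 (Pair n))) + lam b b'

/-- the numbers: `M ≤ E m6`, `∑ δ² ≤ E dl`, `M2 ≤ E m4`, `∑ ζ² ≤ E zl`, `lam ≤ E ls` -/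
structure HNbG (q : Par) (G : GD (Pair n)) (F : (Pair n → ℝ) → ℝ)
    (M δ M2 ζ lam : Fin n → Fin n → ℝ) (m6 dl m4 zl ls : ℝ) : Prop where
  m60 : 0 ≤ m6
  m40 : 0 ≤ m4
  l0 : 0 ≤ ls
  d0 : ∀ b b', b' ≠ b → 0 ≤ δ b b'
  z0 : ∀ b b', b' ≠ b → 0 ≤ ζ b b'
  hM : ∀ b b', b' ≠ b → M b b' ≤ EwG q G F (fun _ => 1) * m6
  hM2 : ∀ b b', b' ≠ b → M2 b b' ≤ EwG q G F (fun _ => 1) * m4
  hδ : ∑ b, ∑ b' ∈ Finset.univ.erase b, δ b b' ^ 2 ≤ EwG q G F (fun _ => 1) * dl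
  hζ : ∑ b, ∑ b' ∈ Finset.univ.erase b, ζ b b' ^ 2 ≤ EwG q G F (fun _ => 1) * zl
  hl : ∀ b b', b' ≠ b → lam b b' ≤ EwG q G F (fun _ => 1) * ls

lemma HNbG.err (hN : HNbG q G F M δ M2 ζ lam m6 dl m4 zl ls) (h : C11 F D B L) (hx : 0 < q.x)
    (hG : G.Ok) :
    ∑ b : Fin n, ∑ b' ∈ Finset.univ.erase b,
      (4 * lam b b' + 8 * (δ b b' * √(M b b')) + 2 * (ζ b b' * √(M2 b b'))) ≤
      (4 * (n ^ 2 * ls) + 8 * (n * √(m6 * dl)) + 2 * (n * √(m4 * zl))) *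
        EwG q G F (fun _ => 1) := by
  have hE := EwG_one_pos (q := q) (G := G) h hx hG
  have h1 := sum_pairs_le (lam := lam) hN.hM hN.hδ hN.hl (mul_nonneg hE.le hN.l0)
    (c := 4) (c' := 8) (by norm_num) (by norm_num) (mul_nonneg hE.le hN.m60) hN.d0
  have h2 := sum_pairs_le (lam := fun _ _ => 0) (ls := 0) hN.hM2 hN.hζ (fun _ _ _ => le_rfl) le_rfl
    (c := 0) (c' := 2) le_rfl (by norm_num) (mul_nonneg hE.le hN.m40) hN.z0
  rw [err_scale hE] at h1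
  have e2 : (0 : ℝ) = EwG q G F (fun _ => 1) * 0 := by ring
  rw [e2, err_scale hE] at h2
  simp only [Finset.sum_add_distrib] at h1 h2 ⊢
  simp only [mul_zero, Finset.sum_const_zero, zero_add] at h2
  linarith

end numbers

section pairs

variable {k x : ℝ} {S : CS n k x}

/-- the moments and the touches of a pair -/
def PrSG (S : CS n k x) (q : Par) (G : GD (Pair n)) (F : (Pair n → ℝ) → ℝ)
    (M δ : Fin n → Fin n → ℝ) : Prop :=
  ∀ b b', b' ≠ b → Pr (phG q G F b b') (fun w => H816.col (A1 S q w) b)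
    (fun w => H816.col (A2 S q w) b) (fun w => H816.col (A1 S q w) b')
    (fun w => H816.col (A2 S q w) b') (a1 S q b b') (a2 S q b b') (a1 S q b' b) (a2 S q b' b)
    (M b b') (δ b b')

variable {M M' δ : Fin n → Fin n → ℝ}

/-- larger moments -/
lemma PrSG.mono (h : PrSG S q G F M δ) (hM : ∀ b b', b' ≠ b → M b b' ≤ M' b b') :
    PrSG S q G F M' δ := by
  intro b b' hb
  have p := h b b' hb
  have m := hM b b' hb
  exact
    { p with
      mA := p.mA.trans m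
      mD := p.mD.trans m
      mA' := p.mA'.trans m
      mD' := p.mD'.trans m
      ma := p.ma.trans m
      md := p.md.trans m
      ma' := p.ma'.trans m
      md' := p.md'.trans m }

end pairs

end Vale.Agent.P146.R1S
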