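import Vale.Agent.P146.H941.SkTS
import Vale.Agent.P146.H797.H941_SkTS
import Vale.Agent.P146.G8.Shared

/-!
P146, plan B, [B8]: the sums over the ordered pairs of sites for a position system
`S : CS n k x` under the law `densG q G F` with a general base density (the results of
`H941.SkTS`).
-/

open MeasureTheory ProbabilityTheory

namespace Vale.Agent.P146.R1S

open Vale.Agent.P157.Lv Vale.Agent.P146.H425 Vale.Agent.P146.H325
  Vale.Agent.P146.H712 Vale.Agent.P146.R1 Vale.Agent.P146.R1C Vale.Agent.P146.H816 Matrix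
open Vale.Agent.P146.H332 hiding Nf Gf

set_option linter.unusedSectionVars false

variable {n : ℕ} {k x : ℝ} {S : CS n k x} {q : Par} {G : GD (Pair n)} {F : (Pair n → ℝ) → ℝ}
  {D : Pair n → (Pair n → ℝ) → ℝ} {B L : ℝ} {M δ lam : Fin n → Fin n → ℝ}

/-- the law change for a pair -/
def LamSG (S : CS n k x) (q : Par) (G : GD (Pair n)) (F : (Pair n → ℝ) → ℝ)
    (lam : Fin n → Fin n → ℝ) : Prop :=
  ∀ b b', b' ≠ b → ∀ U V X Y : (K4 (Pair n) → ℝ) → Fin n → ℝ,
    (U = (fun w => H816.col (A1 S q w) b) ∨ U = (fun w => H816.col (A2 S q w) b)) →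
    (V = (fun w => H816.col (A1 S q w) b') ∨ V = (fun w => H816.col (A2 S q w) b')) →
    (X = (fun w => H816.col (A1 S q w) b) ∨ X = (fun w => H816.col (A2 S q w) b)) →
    (Y = (fun w => H816.col (A1 S q w) b') ∨ Y = (fun w => H816.col (A2 S q w) b')) →
    |(∫ w, densG q G F w * (H706.dp (U w) (V w) * H706.dp (X w) (Y w))
        ∂(gI (K4 (Pair n)))) -
      ∫ w, phG q G F b b' w * (H706.dp (U w) (V w) * H706.dp (X w) (Y w))
        ∂(gI (K4 (Pair n)))| ≤ lam b b'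

/-- the structure of the pairs -/
abbrev ClSG (S : CS n k x) (q : Par) (G : GD (Pair n)) (F : (Pair n → ℝ) → ℝ)
    (M δ lam : Fin n → Fin n → ℝ) : Prop :=
  Cl (densG q G F) (A1 S q) (A2 S q) (fun b => lf (row b)) (fun b b' => pk (Equiv.swap b b'))
    (phG q G F) (a1 S q) (a2 S q) M δ lam

theorem cl_csG (h : C11 F D B L) (hx : 0 < q.x) (hG : G.Ok) (hP : PrSG S q G F M δ)
    (hL : LamSG S q G F lam) : ClSG S q G F M δ lam where
  ep := eg_densG h hx hG
  p0 w := densG_nonneg w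
  eA := eg_A1
  eD := eg_A2
  sA w := tA_T S _ _
  sD w := tA_T S _ _
  hT b b' hb := two_cs S q hb
  hP := hP
  hφ b b' _ := by
    unfold phG
    rw [← lf_union]
    exact ind_Av _ _
  l1 b b' hb := hL b b' hb _ _ _ _ (Or.inl rfl) (Or.inr rfl) (Or.inl rfl) (Or.inr rfl)
  l2 b b' hb := hL b b' hb _ _ _ _ (Or.inl rfl) (Or.inl rfl) (Or.inr rfl) (Or.inr rfl)
  l3 b b' hb := hL b b' hb _ _ _ _ (Or.inl rfl) (Or.inr rfl) (Or.inr rfl) (Or.inl rfl)

/-- **(T1)** -/
theorem ClSG.t1 (hc : ClSG S q G F M δ lam) (h : C11 F D B L) (hx : 0 < q.x) (hG : G.Ok) :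
    ∑ b, ∑ b' ∈ Finset.univ.erase b, EwG q G F (fun w => Gb S q b b' w) ≤ EwG q G F (Dg S q) +
      ∑ b, ∑ b' ∈ Finset.univ.erase b, (2 * lam b b' + 8 * (δ b b' * √(M b b'))) := by
  have h1 := Cl.s1 hc
  refine le_trans (le_of_eq ?_) h1
  refine Finset.sum_congr rfl fun b _ => Finset.sum_congr rfl fun b' _ => ?_
  rw [← int_phG_ind h hx hG (eg_Gb b b') (ind_Gb b b')]
  refine integral_congr_ae (Filter.Eventually.of_forall fun w => ?_)
  simp only
  rw [Gb_eq]
  rfl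

/-- **(T2)** -/
theorem ClSG.t2 (hc : ClSG S q G F M δ lam) (h : C11 F D B L) (hx : 0 < q.x) (hG : G.Ok) :
    EwG q G F (fun w => fr (A1 S q w * A2 S q w - A2 S q w * A1 S q w)) ≤
      (∑ b, ∑ b' ∈ Finset.univ.erase b,
        EwG q G F (fun w => fr (Nd S q b b' w - (Nd S q b b' w)ᵀ))) +
      2 * (∑ b, ∑ b' ∈ Finset.univ.erase b, EwG q G F (fun w => Gb S q b b' w)) +
      ∑ b, ∑ b' ∈ Finset.univ.erase b, (4 * lam b b' + 16 * (δ b b' * √(M b b'))) := by
  have h1 := Cl.s2 hc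
  refine h1.trans (le_of_eq ?_)
  congr 1
  congr 1
  · refine Finset.sum_congr rfl fun b _ => Finset.sum_congr rfl fun b' _ => ?_
    rw [← int_phG_ind h hx hG (eg_Yd b b') (ind_Yd b b')]
    refine integral_congr_ae (Filter.Eventually.of_forall fun w => ?_)
    simp only
    rw [Yb_eq]
    rfl
  · congr 1
    refine Finset.sum_congr rfl fun b _ => Finset.sum_congr rfl fun b' _ => ?_
    rw [← int_phG_ind h hx hG (eg_Gb b b') (ind_Gb b b')]
    refine integral_congr_ae (Filter.Eventually.of_forall fun w => ?_)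
    simp only
    rw [Gb_eq]
    rfl

/-- **(T3)** -/
theorem ClSG.t3 (hc : ClSG S q G F M δ lam) (h : C11 F D B L) (hx : 0 < q.x) (hG : G.Ok) :
    EwG q G F (fun w => fr (A1 S q w * A2 S q w)) ≤ EwG q G F (Dg S q) +
      (∑ b, ∑ b' ∈ Finset.univ.erase b, EwG q G F (fun w => fr (Nd S q b b' w))) +
      ∑ b, ∑ b' ∈ Finset.univ.erase b, (lam b b' + 4 * (δ b b' * √(M b b'))) := by
  have h1 := Cl.s3 hc
  refine h1.trans (le_of_eq ?_)
  congr 1
  congr 1
  refine Finset.sum_congr rfl fun b _ => Finset.sum_congr rfl fun b' _ => ?_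
  rw [← int_phG_ind h hx hG (eg_frNd b b') (ind_frNd b b')]
  refine integral_congr_ae (Filter.Eventually.of_forall fun w => ?_)
  simp only
  rw [Xb_eq]
  rfl

/-! ### the normalized form -/

section norm

variable {m6 dl ls : ℝ}

/-- **(T1)**, normalized -/
theorem ClSG.n1 (hc : ClSG S q G F M δ lam) (hN : NbG q G F M δ lam m6 dl ls) (h : C11 F D B L)
    (hx : 0 < q.x) (hG : G.Ok) :
    ∑ b, ∑ b' ∈ Finset.univ.erase b, EnG q G F (fun w => Gb S q b b' w) ≤ EnG q G F (Dg S q) +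
      (2 * (n ^ 2 * ls) + 8 * (n * √(m6 * dl))) := by
  have hE := EwG_one_pos (q := q) h hx hG
  rw [EnG_sum2, div_le_iff₀ hE, add_mul]
  unfold EnG
  rw [div_mul_cancel₀ _ hE.ne']
  exact (hc.t1 h hx hG).trans (add_le_add le_rfl (hN.err h hx hG (by norm_num) (by norm_num)))

/-- **(T2)**, normalized -/
theorem ClSG.n2 (hc : ClSG S q G F M δ lam) (hN : NbG q G F M δ lam m6 dl ls) (h : C11 F D B L)
    (hx : 0 < q.x) (hG : G.Ok) :
    EnG q G F (fun w => fr (A1 S q w * A2 S q w - A2 S q w * A1 S q w)) ≤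
      (∑ b, ∑ b' ∈ Finset.univ.erase b,
        EnG q G F (fun w => fr (Nd S q b b' w - (Nd S q b b' w)ᵀ))) +
      2 * (∑ b, ∑ b' ∈ Finset.univ.erase b, EnG q G F (fun w => Gb S q b b' w)) +
      (4 * (n ^ 2 * ls) + 16 * (n * √(m6 * dl))) := by
  have hE := EwG_one_pos (q := q) h hx hG
  rw [EnG_sum2, EnG_sum2]
  have h1 := (hc.t2 h hx hG).trans (add_le_add le_rfl (hN.err h hx hG (by norm_num) (by norm_num)))
  unfold EnG
  rw [div_le_iff₀ hE]
  refine h1.trans (le_of_eq ?_)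
  field_simp

/-- **(T3)**, normalized -/
theorem ClSG.n3 (hc : ClSG S q G F M δ lam) (hN : NbG q G F M δ lam m6 dl ls) (h : C11 F D B L)
    (hx : 0 < q.x) (hG : G.Ok) :
    EnG q G F (fun w => fr (A1 S q w * A2 S q w)) ≤ EnG q G F (Dg S q) +
      (∑ b, ∑ b' ∈ Finset.univ.erase b, EnG q G F (fun w => fr (Nd S q b b' w))) +
      (1 * (n ^ 2 * ls) + 4 * (n * √(m6 * dl))) := by
  have hE := EwG_one_pos (q := q) h hx hG
  rw [EnG_sum2]
  have h1 := hN.err h hx hG (c := 1) (c' := 4) (by norm_num) (by norm_num)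
  simp only [one_mul] at h1
  have h2 := (hc.t3 h hx hG).trans (add_le_add le_rfl h1)
  unfold EnG
  rw [div_le_iff₀ hE]
  refine h2.trans (le_of_eq ?_)
  field_simp

end norm

end Vale.Agent.P146.R1S
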